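import Vale.Agent.P046.COD

/-! The theorem `Vale.Agent.P046.DCOD.thm : StmtDCOD` is in `COD.lean`. -/
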